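import Vale.Agent.P243.Third.Profile

/-!
Vertical lines through an origin symmetric body: the chord bound with the gauge of the foot
point, and the bound for the weight 1/2 + gauge in discrete form.
-/

namespace Vale.Agent.P243.Sym

open Set MeasureTheory
open Vale.Agent.P243.Third (G3 shadow chords chords_convex chords_compact volume_chords
  zero_mem_chords top_mem_chords comb_mem fibre_Icc homothety_area)
open scoped ENNReal

/-- Compact convex, symmetric about 0, with interior. -/
structure Symm (K : Set G3) : Prop where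
  compact : IsCompact K
  convex : Convex ℝ K
  neg : ∀ x ∈ K, -x ∈ K
  int : (0 : G3) ∈ interior K

/-- The vertical line over y meets S in this length. -/
noncomputable def vlen (S : Set G3) (y : ℝ × ℝ) : ℝ := (volume (Prod.mk y ⁻¹' S)).toReal

variable {K : Set G3}

lemma shadow_neg (hK : Symm K) {p : ℝ × ℝ} (hp : p ∈ shadow K) : -p ∈ shadow K := by
  obtain ⟨x, hx, rfl⟩ := hp
  exact ⟨-x, hK.neg x hx, rfl⟩

lemma shadow_convex (hK : Symm K) : Convex ℝ (shadow K) :=
  hK.convex.linear_image (LinearMap.fst ℝ (ℝ × ℝ) ℝ)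

lemma zero_mem_int (hK : Symm K) : (0 : ℝ × ℝ) ∈ interior (shadow K) :=
  interior_maximal (image_mono interior_subset) (isOpenMap_fst _ isOpen_interior)
    ⟨0, hK.int, rfl⟩

lemma chord_symm (hK : Symm K) {p : ℝ × ℝ} {s : ℝ} (h : ((p, s) : G3) ∈ chords K) :
    ((-p, s) : G3) ∈ chords K := by
  obtain ⟨hs, t, h1, h2⟩ := h
  refine ⟨hs, -(t + s), ?_, ?_⟩
  · exact hK.neg _ h2
  · have := hK.neg _ h1
    simpa using this

/-- The gauge point: y = a z with z in the shadow and a supporting functional at z. -/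
lemma exists_gauge (hK : Symm K) {y : ℝ × ℝ} (hy : y ∈ shadow K) :
    ∃ (a : ℝ) (z : ℝ × ℝ) (φ : (ℝ × ℝ) →L[ℝ] ℝ), 0 ≤ a ∧ a ≤ 1 ∧ z ∈ shadow K ∧ y = a • z ∧
      (∀ p ∈ shadow K, |φ p| ≤ 1) ∧ (φ z = 1 ∨ a = 0) := by
  have hPc : IsCompact (shadow K) := hK.compact.image continuous_fst
  by_cases hy0 : y = 0
  · exact ⟨0, 0, 0, le_rfl, zero_le_one, interior_subset (zero_mem_int hK), by simp [hy0],
      fun p _ => by simp, Or.inr rfl⟩
  set T : Set ℝ := (fun l : ℝ => l • y) ⁻¹' shadow K with hT
  have hTc : IsCompact T := (isClosedEmbedding_smul_left hy0).isCompact_preimage hPc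
  have h1T : (1 : ℝ) ∈ T := by simpa [hT] using hy
  set m := sSup T with hm
  have hmT : m ∈ T := hTc.sSup_mem ⟨1, h1T⟩
  have hm1 : 1 ≤ m := le_csSup hTc.bddAbove h1T
  set z := m • y with hz
  have hzb : z ∉ interior (shadow K) := by
    intro hzi
    obtain ⟨ε, hε, hb⟩ := Metric.isOpen_iff.1 isOpen_interior z hzi
    have hny : 0 < ‖y‖ := norm_pos_iff.2 hy0
    have hball : (m + ε / 2 / ‖y‖) • y ∈ Metric.ball z ε := by
      rw [Metric.mem_ball, dist_eq_norm, hz, ← sub_smul, norm_smul, Real.norm_eq_abs,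
        add_sub_cancel_left, abs_of_pos (by positivity), div_mul_cancel₀ _ hny.ne']
      linarith
    have : m + ε / 2 / ‖y‖ ∈ T :=
      (show (m + ε / 2 / ‖y‖) • y ∈ shadow K from interior_subset (hb hball))
    have := le_csSup hTc.bddAbove this
    have : 0 < ε / 2 / ‖y‖ := by positivity
    rw [← hm] at *
    linarith
  obtain ⟨f, hf⟩ := geometric_hahn_banach_open_point (shadow_convex hK).interior isOpen_interior hzb
  have hfz : 0 < f z := by simpa using hf 0 (zero_mem_int hK)
  have hle : ∀ p ∈ shadow K, f p ≤ f z := by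
    intro p hp
    have hp' : p ∈ closure (interior (shadow K)) := by
      rw [(shadow_convex hK).closure_interior_eq_closure_of_nonempty_interior ⟨0, zero_mem_int hK⟩]
      exact subset_closure hp
    exact closure_minimal (fun q hq => (hf q hq).le) (isClosed_le f.continuous continuous_const) hp'
  refine ⟨m⁻¹, z, (f z)⁻¹ • f, by positivity, inv_le_one_of_one_le₀ hm1, hmT,
    (inv_smul_smul₀ (by positivity) y).symm, fun p hp => ?_, Or.inl ?_⟩
  · simp only [FunLike.coe_smul, Pi.smul_apply, smul_eq_mul]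
    rw [abs_mul, abs_of_pos (inv_pos.2 hfz), inv_mul_le_iff₀ hfz, mul_one, abs_le]
    have := hle (-p) (shadow_neg hK hp)
    rw [map_neg] at this
    exact ⟨by linarith, hle p hp⟩
  · simp only [FunLike.coe_smul, Pi.smul_apply, smul_eq_mul]
    exact inv_mul_cancel₀ hfz.ne'

/-- Stretching along z. -/
lemma stretch_area (φ : (ℝ × ℝ) →L[ℝ] ℝ) (z : ℝ × ℝ) (k : ℝ) (S : Set (ℝ × ℝ))
    (hd : 0 ≤ 1 + k * φ z) :
    volume ((fun p => p + (k * φ p) • z) '' S) = ENNReal.ofReal (1 + k * φ z) * volume S := by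
  set f : (ℝ × ℝ) →ₗ[ℝ] (ℝ × ℝ) := LinearMap.id + (k • φ.toLinearMap).smulRight z with hf
  have hfa : ∀ p, f p = p + (k * φ p) • z := fun p => by simp [hf]
  have hzd : φ z = z.1 * φ (1, 0) + z.2 * φ (0, 1) := by
    have e : z = z.1 • ((1, 0) : ℝ × ℝ) + z.2 • ((0, 1) : ℝ × ℝ) := by simp
    conv_lhs => rw [e]
    simp only [map_add, map_smul, smul_eq_mul]
  have hdet : LinearMap.det f = 1 + k * φ z := by
    rw [← LinearMap.det_toMatrix (Module.Basis.finTwoProd ℝ), Matrix.det_fin_two, hzd]
    simp [LinearMap.toMatrix_apply, hfa]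
    ring
  rw [show (fun p => p + (k * φ p) • z) = (f : ℝ × ℝ → ℝ × ℝ) from funext fun p => (hfa p).symm,
    Measure.addHaar_image_linearMap, hdet, abs_of_nonneg hd]

/-- A chord, weighted by two plus the gauge of its foot, is at most six volumes. -/
lemma chord_gauge (hK : Symm K) {y z : ℝ × ℝ} {φ : (ℝ × ℝ) →L[ℝ] ℝ} {a L : ℝ} (ha : 0 ≤ a)
    (hya : y = a • z) (hφ : ∀ p ∈ shadow K, |φ p| ≤ 1) (hor : φ z = 1 ∨ a = 0) (hL : 0 < L)
    (hyL : ((y, L) : G3) ∈ chords K) :
    (2 + a) * L * (volume (shadow K)).toReal ≤ 6 * (volume K).toReal := by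
  have hPc : IsCompact (shadow K) := hK.compact.image continuous_fst
  set k : ℝ → ℝ := fun s => a * (s / L) / (1 - s / L) with hk
  let F : ℝ → ℝ × ℝ → ℝ × ℝ := fun s p => (1 - s / L) • p + ((1 - s / L) * (k s * φ p)) • z
  let G : Set G3 := {q | q.2 ∈ Ico 0 L ∧ ∃ p ∈ shadow K, F q.2 p = q.1}
  have hsub : G ⊆ chords K := by
    rintro ⟨q, s⟩ ⟨hs, p, hp, hpq⟩
    dsimp only at hs hpq
    subst hpq
    have hc : 0 < 1 - s / L := by rw [sub_pos, div_lt_one hL]; exact hs.2
    have hφp := abs_le.1 (hφ p hp)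
    have hmem := chords_convex hK.convex hyL (chord_symm hK hyL)
      (show 0 ≤ (1 + φ p) / 2 by linarith) (show 0 ≤ (1 - φ p) / 2 by linarith) (by ring)
    have := chords_convex hK.convex (zero_mem_chords hp) hmem hc.le (div_nonneg hs.1 hL.le)
      (sub_add_cancel _ _)
    convert this using 1
    refine Prod.ext ?_ ?_
    · simp only [F, hk, hya, Prod.fst_add, Prod.smul_fst]
      rw [mul_comm (1 - s / L) (_ * φ p), mul_assoc, mul_comm (φ p), ← mul_assoc, div_mul_cancel₀ _ hc.ne']
      module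
    · show s = _
      simp only [Prod.snd_add, Prod.smul_snd, smul_eq_mul]
      field_simp; ring
  have hkz : ∀ s, k s * φ z = k s := fun s => by
    rcases hor with h | h
    · rw [h, mul_one]
    · simp [hk, h]
  have hGm : MeasurableSet G := by
    -- G is the image of a sigma compact set
    have e : G = (fun r : (ℝ × ℝ) × ℝ => ((F r.2 r.1, r.2) : G3)) '' (shadow K ×ˢ Ico 0 L) := by
      ext q
      constructor
      · rintro ⟨hs, p, hp, hpq⟩; exact ⟨(p, q.2), ⟨hp, hs⟩, Prod.ext hpq rfl⟩
      · rintro ⟨⟨p, s⟩, ⟨hp, hs⟩, rfl⟩; exact ⟨hs, p, hp, rfl⟩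
    have e2 : shadow K ×ˢ Ico 0 L = ⋃ n : ℕ, shadow K ×ˢ Icc 0 (L - L / (n + 1)) := by
      ext ⟨p, s⟩
      simp only [mem_prod, mem_Ico, mem_iUnion, mem_Icc]
      constructor
      · rintro ⟨hp, hs0, hs⟩
        obtain ⟨n, hn⟩ := exists_nat_gt (L / (L - s))
        refine ⟨n, hp, hs0, ?_⟩
        rw [div_lt_iff₀ (sub_pos.2 hs)] at hn
        have : L / (n + 1) ≤ L - s := by
          rw [div_le_iff₀ (by positivity)]; linarith
        linarith
      · rintro ⟨n, hp, hs0, hs⟩
        have : 0 < L / ((n : ℝ) + 1) := by positivity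
        exact ⟨hp, hs0, by linarith⟩
    rw [e, e2, image_iUnion]
    refine MeasurableSet.iUnion fun n => ?_
    refine IsCompact.measurableSet ((hPc.prod isCompact_Icc).image_of_continuousOn ?_)
    have hne : ∀ r ∈ shadow K ×ˢ Icc 0 (L - L / ((n : ℝ) + 1)), (1 - r.2 / L) ≠ 0 := fun r hr => by
      have : 0 < L / ((n : ℝ) + 1) := by positivity
      have : r.2 < L := by linarith [hr.2.2]
      exact (sub_pos.2 ((div_lt_one hL).2 this)).ne'
    simp only [F, hk]
    fun_prop (disch := assumption)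
  have hvol : volume G = ENNReal.ofReal ((2 + a) * L / 6) * volume (shadow K) := by
    rw [Measure.volume_eq_prod, Measure.prod_apply_symm hGm]
    have e : ∀ s, volume ((fun x => (x, s)) ⁻¹' G) = (Ico 0 L).indicator
        (fun s => ENNReal.ofReal ((1 - s / L) * (1 - s / L + a * (s / L))) * volume (shadow K)) s := by
      intro s
      by_cases hs : s ∈ Ico 0 L
      · have hc : 0 < 1 - s / L := by rw [sub_pos, div_lt_one hL]; exact hs.2
        have hk0 : 0 ≤ k s := div_nonneg (mul_nonneg ha (div_nonneg hs.1 hL.le)) hc.le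
        have e1 : (fun x => (x, s)) ⁻¹' G = (fun q => (0 : ℝ × ℝ) + (1 - s / L) • q) ''
            ((fun p => p + (k s * φ p) • z) '' shadow K) := by
          rw [image_image]
          ext x
          simp only [G, F, mem_preimage, mem_ofPred_eq, hs, true_and, mem_image, zero_add, smul_add,
            smul_smul]
        rw [indicator_of_mem hs, e1, homothety_area _ _ hc.le, stretch_area φ z _ _ (by rw [hkz]; linarith),
          hkz, ← mul_assoc, ← ENNReal.ofReal_mul (by positivity)]
        congr 2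
        simp only [hk]
        have : L - s ≠ 0 := (sub_pos.2 hs.2).ne'
        field_simp
      · rw [indicator_of_notMem hs, show (fun x => (x, s)) ⁻¹' G = ∅ from
          eq_empty_of_forall_notMem fun x hx => hs hx.1, measure_empty]
    rw [lintegral_congr e, lintegral_indicator measurableSet_Ico,
      lintegral_mul_const _ (by fun_prop), setLIntegral_congr Ico_ae_eq_Icc,
      ← ofReal_integral_eq_lintegral_ofReal ((by fun_prop :
        Continuous fun s : ℝ => (1 - s / L) * (1 - s / L + a * (s / L))).continuousOn.integrableOn_compact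
        isCompact_Icc) ((ae_restrict_iff' measurableSet_Icc).2 (ae_of_all _ fun s hs => by
          have h1 : 0 ≤ 1 - s / L := by rw [sub_nonneg, div_le_one hL]; exact hs.2
          have h2 : 0 ≤ s / L := div_nonneg hs.1 hL.le
          exact mul_nonneg h1 (add_nonneg h1 (mul_nonneg ha h2))))]
    congr 2
    rw [integral_Icc_eq_integral_Ioc, ← intervalIntegral.integral_of_le hL.le,
      intervalIntegral.integral_comp_div (fun u => (1 - u) * (1 - u + a * u)) hL.ne']
    simp only [zero_div, div_self hL.ne']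
    have : ∫ u in (0 : ℝ)..1, (1 - u) * (1 - u + a * u) = (2 + a) / 6 := by
      have : ∀ u : ℝ, (1 - u) * (1 - u + a * u) = 1 + (a - 2) * u + (1 - a) * u ^ 2 := fun u => by ring
      simp only [this]
      rw [intervalIntegral.integral_add ((by fun_prop : Continuous _).intervalIntegrable _ _)
          ((by fun_prop : Continuous _).intervalIntegrable _ _),
        intervalIntegral.integral_add ((by fun_prop : Continuous _).intervalIntegrable _ _)
          ((by fun_prop : Continuous _).intervalIntegrable _ _),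
        intervalIntegral.integral_const_mul, intervalIntegral.integral_const_mul, integral_id,
        integral_pow]
      simp
      ring
    rw [this, smul_eq_mul]; ring
  have := ENNReal.toReal_mono (by rw [volume_chords hK.compact hK.convex]; exact hK.compact.measure_ne_top)
    (measure_mono (μ := volume) hsub)
  rw [hvol, volume_chords hK.compact hK.convex, ENNReal.toReal_mul,
    ENNReal.toReal_ofReal (by positivity)] at this
  linarith

/-- Scaled copies meet the line in at least the interpolated length. -/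
lemma scaled_len (hK : Symm K) {y z : ℝ × ℝ} {a t L s : ℝ} (ha : 0 ≤ a) (hz : z ∈ shadow K)
    (hya : y = a • z) (hL : 0 ≤ L) (h1 : ((y, t) : G3) ∈ K) (h2 : ((y, t + L) : G3) ∈ K)
    (hs : a < s) (hs1 : s ≤ 1) :
    L * (s - a) / (1 - a) ≤ vlen ((fun x : G3 => s • x) '' K) y := by
  obtain ⟨⟨z', tz⟩, htz, rfl⟩ := hz
  simp only at hya
  set l := (s - a) / (s * (1 - a)) with hl
  have hs0 : 0 < s := lt_of_le_of_lt ha hs
  have ha1 : 0 < 1 - a := by linarith
  have hl0 : 0 ≤ l := div_nonneg (by linarith) (by positivity)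
  have hl1 : l ≤ 1 := by
    rw [hl, div_le_one (by positivity)]; nlinarith
  have hy : s * (l * a + (1 - l)) = a := by rw [hl]; field_simp; ring
  set c := s * (l * t + (1 - l) * tz) with hc
  have hsub : Icc c (c + L * (s - a) / (1 - a)) ⊆ Prod.mk y ⁻¹' ((fun x : G3 => s • x) '' K) := by
    intro r hr
    have hw : s * l * L = L * (s - a) / (1 - a) := by rw [hl]; field_simp
    have hex : ∃ r' ∈ Icc t (t + L), s * (l * r' + (1 - l) * tz) = r := by
      by_cases h0 : s * l = 0
      · refine ⟨t, ⟨le_rfl, by linarith⟩, ?_⟩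
        have : r = c := le_antisymm (by rw [← hw, h0, zero_mul, add_zero] at hr; exact hr.2) hr.1
        rw [this, hc]
      · have hp : 0 < s * l := lt_of_le_of_ne (by positivity) (Ne.symm h0)
        refine ⟨t + (r - c) / (s * l), ⟨le_add_of_nonneg_right (div_nonneg (sub_nonneg.2 hr.1) hp.le),
          ?_⟩, ?_⟩
        · rw [add_le_add_iff_left, div_le_iff₀ hp]; linarith [hr.2]
        · rw [hc]
          have := mul_div_cancel₀ (r - c) h0
          linear_combination this
    obtain ⟨r', hr', rfl⟩ := hex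
    have hr'K : ((y, r') : G3) ∈ K := by
      rcases fibre_Icc hK.compact hK.convex y with h | ⟨p, q, -, h⟩
      · exact absurd h1 (eq_empty_iff_forall_notMem.1 h t)
      · have e1 : t ∈ Icc p q := h ▸ h1
        have e2 : t + L ∈ Icc p q := h ▸ h2
        exact (show r' ∈ Prod.mk y ⁻¹' K from h ▸ ⟨e1.1.trans hr'.1, hr'.2.trans e2.2⟩)
    refine ⟨_, comb_mem hK.convex hr'K htz hl0 (sub_nonneg.2 hl1) (add_sub_cancel _ _), ?_⟩
    refine Prod.ext ?_ ?_
    · show s • (l • y + (1 - l) • z') = y
      rw [hya, smul_smul l a, ← add_smul, smul_smul, hy]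
    · rfl
  have hcpt : IsCompact ((fun x : G3 => s • x) '' K) := hK.compact.image (by fun_prop)
  have hfc : IsCompact (Prod.mk y ⁻¹' ((fun x : G3 => s • x) '' K)) :=
    IsCompact.of_isClosed_subset (hcpt.image continuous_snd)
      (hcpt.isClosed.preimage (Continuous.prodMk_right y)) fun r hr => ⟨(y, r), hr, rfl⟩
  have := ENNReal.toReal_mono hfc.measure_ne_top (measure_mono (μ := volume) hsub)
  rw [Real.volume_Icc, add_sub_cancel_left, ENNReal.toReal_ofReal
    (div_nonneg (mul_nonneg hL (by linarith)) ha1.le)] at this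
  exact this

lemma riemann_step (N : ℕ) (a : ℝ) (j : ℕ) :
    max (((j + 1 : ℕ) : ℝ) / N - a) 0 ^ 2 / 2 - max ((j : ℝ) / N - a) 0 ^ 2 / 2
      ≤ 1 / N * max (((j + 1 : ℕ) : ℝ) / N - a) 0 := by
  push_cast
  set u := ((j : ℝ) + 1) / N - a
  set v := (j : ℝ) / N - a
  have huv : u - v = 1 / N := by simp only [u, v]; ring
  have hN : (0 : ℝ) ≤ 1 / N := by positivity
  rcases le_total u 0 with h | h
  · have : v ≤ 0 := by linarith
    simp [max_eq_right h, max_eq_right this]
  · rw [max_eq_left h]
    rcases le_total v 0 with h' | h'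
    · rw [max_eq_right h']; nlinarith
    · rw [max_eq_left h']; nlinarith

/-- The weight 1/2 + gauge on a line, in discrete form. -/
lemma line_bound (hK : Symm K) {N : ℕ} (hN : 0 < N) (y : ℝ × ℝ) :
    (3 / 2 * vlen K y -
        1 / N * ∑ j ∈ Finset.range N, vlen ((fun x : G3 => (((j + 1 : ℕ) : ℝ) / N) • x) '' K) y) *
      (volume (shadow K)).toReal ≤ 3 * (volume K).toReal := by
  have hP := ENNReal.toReal_nonneg (a := volume (shadow K))
  have hV := ENNReal.toReal_nonneg (a := volume K)
  have hsum0 : 0 ≤ 1 / (N : ℝ) * ∑ j ∈ Finset.range N,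
      vlen ((fun x : G3 => (((j + 1 : ℕ) : ℝ) / N) • x) '' K) y :=
    mul_nonneg (by positivity) (Finset.sum_nonneg fun _ _ => ENNReal.toReal_nonneg)
  rcases fibre_Icc hK.compact hK.convex y with h | ⟨t, q, htq, h⟩
  · have : vlen K y = 0 := by rw [vlen, h, measure_empty]; rfl
    rw [this]
    have := mul_nonneg hsum0 hP
    linarith
  rcases htq.eq_or_lt with rfl | hlt
  · have : vlen K y = 0 := by rw [vlen, h, Real.volume_Icc, sub_self]; simp
    rw [this]
    have := mul_nonneg hsum0 hP
    linarith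
  have h1 : ((y, t) : G3) ∈ K := show t ∈ Prod.mk y ⁻¹' K from h ▸ ⟨le_rfl, htq⟩
  have h2 : ((y, t + (q - t)) : G3) ∈ K := by
    rw [add_sub_cancel]; exact show q ∈ Prod.mk y ⁻¹' K from h ▸ ⟨htq, le_rfl⟩
  set L := q - t with hL
  have hLK : vlen K y = L := by rw [vlen, h, Real.volume_Icc, ENNReal.toReal_ofReal]; linarith
  have hyP : y ∈ shadow K := ⟨(y, t), h1, rfl⟩
  obtain ⟨a, z, φ, ha, ha1, hz, hya, hφ, hor⟩ := exists_gauge hK hyP
  have hLpos : 0 < L := by rw [hL]; linarith
  have hchord := chord_gauge hK ha hya hφ hor hLpos (top_mem_chords hLpos.le h1 h2)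
  have hsum : L * (1 - a) / 2 ≤ 1 / N * ∑ j ∈ Finset.range N,
      vlen ((fun x : G3 => (((j + 1 : ℕ) : ℝ) / N) • x) '' K) y := by
    rcases ha1.eq_or_lt with rfl | ha1'
    · linarith
    have hterm : ∀ j ∈ Finset.range N, L / (1 - a) * max (((j + 1 : ℕ) : ℝ) / N - a) 0 ≤
        vlen ((fun x : G3 => (((j + 1 : ℕ) : ℝ) / N) • x) '' K) y := by
      intro j hj
      rcases le_or_gt (((j + 1 : ℕ) : ℝ) / N) a with hle | hgt
      · rw [max_eq_right (by linarith), mul_zero]; exact ENNReal.toReal_nonneg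
      · rw [max_eq_left (by linarith)]
        have hj1 : (((j + 1 : ℕ) : ℝ)) / N ≤ 1 := by
          rw [div_le_one (by exact_mod_cast hN)]
          exact_mod_cast Finset.mem_range.1 hj
        refine le_trans (le_of_eq ?_) (scaled_len hK ha hz hya hLpos.le h1 h2 hgt hj1)
        ring
    have htel := Finset.sum_le_sum (s := Finset.range N) fun j _ => riemann_step N a j
    rw [Finset.sum_range_sub (fun j : ℕ => max ((j : ℝ) / N - a) 0 ^ 2 / 2), ← Finset.mul_sum,
      Nat.cast_zero, zero_div, max_eq_right (by linarith : (0 : ℝ) - a ≤ 0),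
      div_self (by positivity), max_eq_left (by linarith)] at htel
    have h3 := Finset.sum_le_sum hterm
    rw [← Finset.mul_sum] at h3
    have h4 := mul_le_mul_of_nonneg_left htel (show 0 ≤ L / (1 - a) from div_nonneg hLpos.le (by linarith))
    have h5 := mul_le_mul_of_nonneg_left h3 (show 0 ≤ 1 / (N : ℝ) by positivity)
    have e : L / (1 - a) * (((1 - a) ^ 2 / 2 - 0 ^ 2 / 2)) = L * (1 - a) / 2 := by field_simp; ring
    linarith
  rw [hLK]
  have := mul_le_mul_of_nonneg_right hsum hP
  linarith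

end Vale.Agent.P243.Sym
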