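import Vale.Agent.P243.Third.Affine
import Vale.Agent.P243.Sym.Line

/-!
Cylinder coverings of centrally symmetric bodies: relative area at least 5/12.
-/

namespace Vale.Agent.P243.Sym

open Set MeasureTheory Filter Topology
open Vale.Agent.P243.Third (G3 shadow len frame shadow_eq)
open scoped RealInnerProductSpace ENNReal

lemma lintegral_sum_le {α ι : Type*} [MeasurableSpace α] (μ : Measure α) (s : Finset ι)
    (f : ι → α → ℝ≥0∞) : ∑ j ∈ s, ∫⁻ x, f j x ∂μ ≤ ∫⁻ x, ∑ j ∈ s, f j x ∂μ := by
  classical
  induction s using Finset.induction_on with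
  | empty => simp
  | insert j s hj ih =>
    simp only [Finset.sum_insert hj]
    exact (add_le_add le_rfl ih).trans (le_lintegral_add _ _)

/-- Finitely many weighted subsets: a bound on all lines gives a bound on coverings. -/
lemma covering_weighted {K : Set R3} (hK : IsCompact K) (hint : (interior K).Nonempty)
    {ι : Type*} (J : Finset ι) (A : ι → Set R3) (w : ι → ℝ) (hw : ∀ j ∈ J, 0 ≤ w j)
    (hA : ∀ j ∈ J, MeasurableSet (A j)) (hAK : ∀ j ∈ J, A j ⊆ K) {b : ℝ}
    (hI : ∀ u x : R3, ‖u‖ = 1 →
      (∑ j ∈ J, w j * len (A j) x u) * (shadowArea u K).toReal ≤ b)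
    {m : ℕ} (u : Fin m → R3) (hu : ∀ i, ‖u i‖ = 1) (B : ∀ i, Set ↥(orthPlane (u i)))
    (hcov : K ⊆ ⋃ i, cylinderOver (orthPlane (u i)) (B i)) :
    ENNReal.ofReal (∑ j ∈ J, w j * (volume (A j)).toReal) ≤
      (∑ i, area (orthPlane (u i)) (B i) / shadowArea (u i) K) * ENNReal.ofReal b := by
  have hKfin : volume K ≠ ∞ := hK.measure_ne_top
  have key : ∀ i, ∑ j ∈ J, ENNReal.ofReal (w j) *
      volume (A j ∩ cylinderOver (orthPlane (u i)) (B i)) ≤
      area (orthPlane (u i)) (B i) / shadowArea (u i) K * ENNReal.ofReal b := by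
    intro i
    obtain ⟨e, n, ψ, he, hn, hen, heu, hnu, hmp, hψ⟩ := frame (hu i)
    have hne : u i ≠ 0 := norm_ne_zero_iff.1 (by rw [hu i]; norm_num)
    obtain ⟨φ, hφ, hφx⟩ := plane_coords finrank_euclideanSpace_fin hne he hn hen heu hnu
    set U := toMeasurable volume (φ '' B i) with hU
    have hUm : MeasurableSet U := measurableSet_toMeasurable _ _
    have hUv : volume U = area (orthPlane (u i)) (B i) := by
      rw [hU, measure_toMeasurable]
      exact (hφ.measure_preimage_emb φ.measurableEmbedding _).symm.trans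
        (congrArg volume (preimage_image_eq _ φ.injective))
    have hcyl : cylinderOver (orthPlane (u i)) (B i) ⊆ ψ ⁻¹' (U ×ˢ univ) := by
      intro x hx
      refine ⟨subset_toMeasurable _ _ ⟨_, hx, ?_⟩, mem_univ _⟩
      rw [hψ]; exact hφx x
    have hpart : ∀ j ∈ J,
        volume (A j ∩ cylinderOver (orthPlane (u i)) (B i)) ≤
          ∫⁻ y in U, ENNReal.ofReal (len (A j) (ψ.symm (y, 0)) (u i)) := by
      intro j hj
      refine (measure_mono (inter_subset_inter_right _ hcyl)).trans (le_of_eq ?_)
      have hm' : MeasurableSet (ψ.symm ⁻¹' A j ∩ U ×ˢ univ) :=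
        ((hA j hj).preimage ψ.symm.continuous.measurable).inter (hUm.prod MeasurableSet.univ)
      have e' : A j ∩ ψ ⁻¹' (U ×ˢ univ) = ψ ⁻¹' (ψ.symm ⁻¹' A j ∩ U ×ˢ univ) := by
        ext x; simp
      rw [e', hmp.measure_preimage_emb ψ.measurableEmbedding, Measure.volume_eq_prod,
        Measure.prod_apply hm', ← lintegral_indicator hUm]
      refine lintegral_congr fun y => ?_
      by_cases hy : y ∈ U
      · have hl : ∀ t : ℝ, ψ.symm (y, t) = ψ.symm (y, 0) + t • u i := fun t => by
          apply ψ.injective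
          rw [ψ.apply_symm_apply, hψ]
          have h0 := ψ.apply_symm_apply (y, 0)
          rw [hψ] at h0
          have ha := congrArg (fun q : G3 => q.1.1) h0
          have hb := congrArg (fun q : G3 => q.1.2) h0
          have hc := congrArg (fun q : G3 => q.2) h0
          dsimp only at ha hb hc
          simp [inner_add_right, inner_smul_right, heu, hnu, hu i, ha, hb, hc]
        have hpre : Prod.mk y ⁻¹' (ψ.symm ⁻¹' A j ∩ U ×ˢ univ) =
            (fun t : ℝ => ψ.symm (y, 0) + t • u i) ⁻¹' A j := by
          ext t; simp [hy, ← hl t]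
        rw [indicator_of_mem hy, hpre, len, ENNReal.ofReal_toReal]
        refine ne_top_of_le_ne_top ?_ (measure_mono (preimage_mono (hAK j hj)))
        have hc' : IsCompact ((fun t : ℝ => ψ.symm (y, 0) + t • u i) ⁻¹' K) :=
          Topology.IsClosedEmbedding.isCompact_preimage
            ((Homeomorph.addLeft (ψ.symm (y, 0))).isClosedEmbedding.comp
              (isClosedEmbedding_smul_left hne)) hK
        exact hc'.measure_ne_top
      · rw [indicator_of_notMem hy, show Prod.mk y ⁻¹' (ψ.symm ⁻¹' A j ∩ U ×ˢ univ) = ∅ by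
          ext t; simp [hy], measure_empty]
    have hshfin : shadowArea (u i) K ≠ ∞ := by
      rw [← shadow_eq he hn (hu i) hen heu hnu hψ]
      exact ((hK.image ψ.continuous).image continuous_fst).measure_ne_top
    have hsh0 : shadowArea (u i) K ≠ 0 := by
      rw [shadowArea, projArea, area, orthPlane]
      exact (proj_area finrank_euclideanSpace_fin hne he hn hen heu hnu K).trans_ne
        (area_ne_zero he hn hen hint)
    set P := (shadowArea (u i) K).toReal with hP
    have hP0 : 0 < P := ENNReal.toReal_pos hsh0 hshfin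
    calc _ ≤ ∑ j ∈ J, ∫⁻ y in U, ENNReal.ofReal (w j) *
          ENNReal.ofReal (len (A j) (ψ.symm (y, 0)) (u i)) := Finset.sum_le_sum fun j hj => by
            rw [lintegral_const_mul' _ _ ENNReal.ofReal_ne_top]
            exact mul_le_mul' le_rfl (hpart j hj)
      _ ≤ ∫⁻ y in U, ∑ j ∈ J, ENNReal.ofReal (w j) *
          ENNReal.ofReal (len (A j) (ψ.symm (y, 0)) (u i)) := lintegral_sum_le _ _ _
      _ ≤ ∫⁻ _ in U, ENNReal.ofReal (b / P) := by
          refine setLIntegral_mono measurable_const fun y _ => ?_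
          rw [Finset.sum_congr rfl fun j hj =>
            (ENNReal.ofReal_mul (q := len (A j) (ψ.symm (y, 0)) (u i)) (hw j hj)).symm,
            ← ENNReal.ofReal_sum_of_nonneg fun j hj => mul_nonneg (hw j hj)
              (show 0 ≤ len (A j) _ _ from ENNReal.toReal_nonneg)]
          exact ENNReal.ofReal_le_ofReal ((le_div_iff₀ hP0).2 (hI (u i) _ (hu i)))
      _ = _ := by
          rw [setLIntegral_const, hUv, ENNReal.ofReal_div_of_pos hP0, hP,
            ENNReal.ofReal_toReal hshfin, div_eq_mul_inv, div_eq_mul_inv]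
          ring
  rw [ENNReal.ofReal_sum_of_nonneg fun j hj => mul_nonneg (hw j hj) ENNReal.toReal_nonneg,
    Finset.sum_mul]
  calc ∑ j ∈ J, ENNReal.ofReal (w j * (volume (A j)).toReal)
      ≤ ∑ j ∈ J, ∑ i, ENNReal.ofReal (w j) * volume (A j ∩ cylinderOver (orthPlane (u i)) (B i)) := by
        refine Finset.sum_le_sum fun j hj => ?_
        rw [ENNReal.ofReal_mul (hw j hj), ENNReal.ofReal_toReal
          (measure_ne_top_of_subset (hAK j hj) hKfin), ← Finset.mul_sum]
        refine mul_le_mul' le_rfl (le_trans (measure_mono fun x hx => ?_)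
          (measure_iUnion_fintype_le _ _))
        obtain ⟨i, hi⟩ := mem_iUnion.1 (hcov (hAK j hj hx))
        exact mem_iUnion.2 ⟨i, hx, hi⟩
    _ = ∑ i, ∑ j ∈ J, ENNReal.ofReal (w j) * volume (A j ∩ cylinderOver (orthPlane (u i)) (B i)) :=
        Finset.sum_comm
    _ ≤ _ := Finset.sum_le_sum fun i _ => key i

lemma sum_cubes (n : ℕ) :
    ∑ j ∈ Finset.range n, ((j + 1 : ℕ) : ℝ) ^ 3 = (n : ℝ) ^ 2 * ((n : ℝ) + 1) ^ 2 / 4 := by
  induction n with
  | zero => simp
  | succ n ih => rw [Finset.sum_range_succ, ih]; push_cast; ring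

/-- The bound at stage N. -/
lemma covering_stage {K : Set R3} (hK : IsCompact K) (hc : Convex ℝ K)
    (hint : (interior K).Nonempty) {o : R3} (hsym : ∀ x ∈ K, (2 : ℝ) • o - x ∈ K) {N : ℕ}
    (hN : 0 < N) {m : ℕ} (u : Fin m → R3) (hu : ∀ i, ‖u i‖ = 1)
    (B : ∀ i, Set ↥(orthPlane (u i)))
    (hcov : K ⊆ ⋃ i, cylinderOver (orthPlane (u i)) (B i)) :
    ENNReal.ofReal ((3 / 2 - (1 + 1 / (N : ℝ)) ^ 2 / 4) / 3) ≤
      ∑ i, area (orthPlane (u i)) (B i) / shadowArea (u i) K := by
  have ho : o ∈ interior K := by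
    obtain ⟨p, hp⟩ := hint
    have := hc.combo_interior_self_mem_interior hp (hsym p (interior_subset hp))
      (show (0 : ℝ) < 1 / 2 by norm_num) (show (0 : ℝ) ≤ 1 / 2 by norm_num) (by norm_num)
    rwa [smul_sub, smul_smul, show (1 / 2 : ℝ) * 2 = 1 by norm_num, one_smul,
      add_sub_cancel] at this
  let g : ℕ → R3 → R3 := fun j => AffineMap.homothety o (((j + 1 : ℕ) : ℝ) / N)
  have hg : ∀ j x, g j x = (((j + 1 : ℕ) : ℝ) / N) • (x - o) + o := fun j x => by
    simp [g, AffineMap.homothety_apply]
  have hgK : ∀ j ∈ Finset.range N, g j '' K ⊆ K := by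
    rintro j hj _ ⟨x, hx, rfl⟩
    have h1 : (((j + 1 : ℕ) : ℝ) / N) ≤ 1 := by
      rw [div_le_one (by exact_mod_cast hN)]; exact_mod_cast Finset.mem_range.1 hj
    have := hc.add_smul_sub_mem (interior_subset ho) hx ⟨by positivity, h1⟩
    rw [hg, add_comm]; exact this
  have hgm : ∀ j, MeasurableSet (g j '' K) := fun j =>
    (hK.image (by rw [funext (hg j)]; fun_prop)).measurableSet
  let A : Option ℕ → Set R3 := fun j => j.elim K fun j => K \ g j '' K
  let w : Option ℕ → ℝ := fun j => j.elim (1 / 2) fun _ => 1 / N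
  have hKfin : volume K ≠ ∞ := hK.measure_ne_top
  have hI : ∀ v x : R3, ‖v‖ = 1 →
      (∑ j ∈ Finset.insertNone (Finset.range N), w j * len (A j) x v) * (shadowArea v K).toReal
        ≤ 3 * (volume K).toReal := by
    intro v x hv
    obtain ⟨e, n, ψ, he, hn, hen, heu, hnu, hmp, hψ⟩ := frame hv
    set c : R3 → G3 := fun z => ψ (z - o) with hcdef
    have hlin : ∀ (r : ℝ) (z : R3), ψ (r • z) = r • ψ z := fun r z => by
      simp [hψ, inner_smul_right]
    have hadd : ∀ z z' : R3, ψ (z + z') = ψ z + ψ z' := fun z z' => by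
      simp [hψ, inner_add_right]
    have hneg : ∀ z : R3, ψ (-z) = -ψ z := fun z => by simp [hψ]
    have hcinj : Function.Injective c := fun a b h => sub_left_injective (ψ.injective h)
    have hccont : Continuous c := ψ.continuous.comp (continuous_id.sub continuous_const)
    have hS : Symm (c '' K) := by
      refine ⟨hK.image hccont, ?_, ?_, ?_⟩
      · rintro _ ⟨a, ha, rfl⟩ _ ⟨b, hb, rfl⟩ r s hr hs hrs
        refine ⟨r • a + s • b, hc ha hb hr hs hrs, ?_⟩
        show ψ (r • a + s • b - o) = r • ψ (a - o) + s • ψ (b - o)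
        rw [← hlin, ← hlin, ← hadd]
        congr 1
        conv_lhs => rw [← one_smul ℝ o, ← hrs]
        module
      · rintro _ ⟨a, ha, rfl⟩
        refine ⟨(2 : ℝ) • o - a, hsym a ha, ?_⟩
        show ψ ((2 : ℝ) • o - a - o) = -ψ (a - o)
        rw [← hneg]; congr 1; module
      · have hopen : IsOpen (c '' interior K) :=
          ((Homeomorph.subRight o).trans ψ).isOpenMap _ isOpen_interior
        refine interior_maximal (image_mono interior_subset) hopen ⟨o, ho, ?_⟩
        show ψ (o - o) = 0
        rw [sub_self]; simp [hψ]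
    have hvol : volume (c '' K) = volume K := by
      have : c '' K = ψ '' ((fun z => z - o) '' K) := by rw [image_image]
      rw [this, ← hmp.measure_preimage_emb ψ.measurableEmbedding, preimage_image_eq _ ψ.injective,
        show (fun z => z - o) = (fun z => z + -o) from funext fun z => sub_eq_add_neg z o,
        image_add_right, measure_preimage_add_right]
    have hshadow : volume (shadow (c '' K)) = shadowArea v K := by
      rw [← shadow_eq he hn hv hen heu hnu hψ]
      have : shadow (c '' K) = (fun p => p + -(ψ o).1) '' shadow (ψ '' K) := by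
        simp only [shadow, image_image, hcdef]
        refine image_congr fun z _ => ?_
        rw [sub_eq_add_neg, hadd, hneg]; rfl
      rw [this, image_add_right, measure_preimage_add_right]
    have hline : ∀ t : ℝ, c (x + t • v) = ((c x).1, (c x).2 + t) := fun t => by
      show ψ (x + t • v - o) = ((ψ (x - o)).1, (ψ (x - o)).2 + t)
      rw [show x + t • v - o = (x - o) + t • v by abel, hadd, hlin]
      simp [hψ, heu, hnu, hv]
    have hlen : ∀ S : Set R3, len S x v = vlen (c '' S) (c x).1 := fun S => by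
      have e1 : (fun t : ℝ => x + t • v) ⁻¹' S =
          (fun t : ℝ => (c x).2 + t) ⁻¹' (Prod.mk (c x).1 ⁻¹' (c '' S)) := by
        ext t
        simp only [mem_preimage, ← hline t, hcinj.mem_set_image]
      rw [len, vlen, e1, measure_preimage_add]
    have hscale : ∀ j, c '' (g j '' K) =
        (fun z : G3 => (((j + 1 : ℕ) : ℝ) / N) • z) '' (c '' K) := fun j => by
      rw [image_image, image_image]
      refine image_congr fun z _ => ?_
      show ψ (g j z - o) = _
      rw [hg, add_sub_cancel_right, hlin]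
    have hdiff : ∀ j ∈ Finset.range N,
        len (K \ g j '' K) x v = len K x v - len (g j '' K) x v := fun j hj => by
      have hne : v ≠ 0 := norm_ne_zero_iff.1 (by rw [hv]; norm_num)
      have hfin : volume ((fun t : ℝ => x + t • v) ⁻¹' K) ≠ ∞ :=
        (Topology.IsClosedEmbedding.isCompact_preimage
          ((Homeomorph.addLeft x).isClosedEmbedding.comp
            (isClosedEmbedding_smul_left hne)) hK).measure_ne_top
      rw [len, len, len, preimage_sdiff, measure_sdiff (preimage_mono (hgK j hj))
        ((hgm j).preimage (by fun_prop)).nullMeasurableSet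
        (measure_ne_top_of_subset (preimage_mono (hgK j hj)) hfin),
        ENNReal.toReal_sub_of_le (measure_mono (preimage_mono (hgK j hj))) hfin]
    have hsum : ∑ j ∈ Finset.insertNone (Finset.range N), w j * len (A j) x v =
        3 / 2 * vlen (c '' K) (c x).1 - 1 / N * ∑ j ∈ Finset.range N,
          vlen ((fun z : G3 => (((j + 1 : ℕ) : ℝ) / N) • z) '' (c '' K)) (c x).1 := by
      rw [Finset.sum_insertNone]
      simp only [A, w, Option.elim]
      rw [← Finset.mul_sum, Finset.sum_congr rfl hdiff, Finset.sum_sub_distrib, Finset.sum_const,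
        Finset.card_range, nsmul_eq_mul, hlen K]
      simp only [hlen, hscale]
      have : (N : ℝ) ≠ 0 := by exact_mod_cast hN.ne'
      field_simp; ring
    have := line_bound hS hN (c x).1
    rw [hvol, hshadow] at this
    rw [hsum]
    exact this
  have h := covering_weighted hK hint (Finset.insertNone (Finset.range N)) A w
    (fun j _ => by cases j <;> simp [w]) (fun j _ => by
      cases j with
      | none => exact hK.measurableSet
      | some j => exact hK.measurableSet.diff (hgm j))
    (fun j _ => by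
      cases j with
      | none => exact subset_rfl
      | some j => exact sdiff_subset) hI u hu B hcov
  have hV : 0 < (volume K).toReal := ENNReal.toReal_pos
    ((measure_mono_null interior_subset).mt (isOpen_interior.measure_pos volume hint).ne') hKfin
  have hvolg : ∀ j ∈ Finset.range N, (volume (K \ g j '' K)).toReal =
      (volume K).toReal - (((j + 1 : ℕ) : ℝ) / N) ^ 3 * (volume K).toReal := fun j hj => by
    rw [measure_sdiff (hgK j hj) (hgm j).nullMeasurableSet
      (measure_ne_top_of_subset (hgK j hj) hKfin),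
      ENNReal.toReal_sub_of_le (measure_mono (hgK j hj)) hKfin]
    congr 1
    simp only [g]
    rw [Measure.addHaar_image_homothety, finrank_euclideanSpace_fin, ENNReal.toReal_mul,
      ENNReal.toReal_ofReal (abs_nonneg _), abs_of_nonneg (by positivity)]
  have hW : ∑ j ∈ Finset.insertNone (Finset.range N), w j * (volume (A j)).toReal =
      (3 / 2 - (1 + 1 / (N : ℝ)) ^ 2 / 4) * (volume K).toReal := by
    rw [Finset.sum_insertNone]
    simp only [A, w, Option.elim]
    rw [← Finset.mul_sum, Finset.sum_congr rfl hvolg, Finset.sum_sub_distrib, Finset.sum_const,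
      Finset.card_range, nsmul_eq_mul, ← Finset.sum_mul]
    simp only [div_pow]
    rw [← Finset.sum_div, sum_cubes]
    have : (N : ℝ) ≠ 0 := by exact_mod_cast hN.ne'
    field_simp; ring
  rw [hW] at h
  have h' := ENNReal.div_le_of_le_mul h
  rw [← ENNReal.ofReal_div_of_pos (by positivity), mul_div_mul_right _ _ hV.ne'] at h'
  exact h'

/-- The bound 5/12. -/
theorem five_twelfths {K : Set R3} (hK : IsCompact K) (hc : Convex ℝ K)
    (hint : (interior K).Nonempty) {o : R3} (hsym : ∀ x ∈ K, (2 : ℝ) • o - x ∈ K)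
    {m : ℕ} (u : Fin m → R3) (hu : ∀ i, ‖u i‖ = 1)
    (B : ∀ i, Set ↥(orthPlane (u i)))
    (hcov : K ⊆ ⋃ i, cylinderOver (orthPlane (u i)) (B i)) :
    ENNReal.ofReal (5 / 12) ≤ ∑ i, area (orthPlane (u i)) (B i) / shadowArea (u i) K := by
  have hlim : Tendsto (fun N : ℕ => ENNReal.ofReal ((3 / 2 - (1 + 1 / (N : ℝ)) ^ 2 / 4) / 3))
      atTop (𝓝 (ENNReal.ofReal (5 / 12))) := by
    refine ENNReal.tendsto_ofReal ?_
    have h1 : Tendsto (fun N : ℕ => (1 : ℝ) / N) atTop (𝓝 0) :=
      tendsto_one_div_atTop_nhds_zero_nat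
    have hcn : Continuous fun t : ℝ => (3 / 2 - (1 + t) ^ 2 / 4) / 3 := by fun_prop
    have := (hcn.tendsto 0).comp h1
    convert this using 2 <;> norm_num
  refine le_of_tendsto hlim ?_
  filter_upwards [eventually_gt_atTop 0] with N hN
  exact covering_stage hK hc hint hsym hN u hu B hcov

end Vale.Agent.P243.Sym
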